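import Mathlib
import Vale.Agent.P238.Main
import Vale.Agent.P238.Upper

namespace Vale.Agent.Results.P238.Growth

/-- `c_1({0,1}^n, ED) = exp(Θ(sqrt(log n log log n)))`. -/
theorem result : ∃ c C : ℝ, 0 < c ∧ 0 < C ∧ ∃ N : ℕ, ∀ n : ℕ, N ≤ n →
    Real.exp (c * Real.sqrt (Real.log n * Real.log (Real.log n))) ≤ Vale.Agent.P238.c1 n ∧
    Vale.Agent.P238.c1 n ≤ Real.exp (C * Real.sqrt (Real.log n * Real.log (Real.log n))) := by
  obtain ⟨a, ha⟩ : ∃ a : ℕ, 8 ≤ a := ⟨8, le_rfl⟩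
  refine ⟨1 / 100, 20, by norm_num, by norm_num,
    max (2 ^ (25 * a * 4 ^ a)) ⌈Real.exp (Real.exp 10)⌉₊, fun n hn => ⟨?_, ?_⟩⟩
  · exact Vale.Agent.P238.lower a ha n (le_of_max_le_left hn)
  · exact Vale.Agent.P238.upper n (Nat.ceil_le.1 (le_of_max_le_right hn))

end Vale.Agent.Results.P238.Growth
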