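import Mathlib
import Vale.Agent.P238.Main

namespace Vale.Agent.Results.P238.Lower

/-- `c_1({0,1}^n, ED) ≥ exp(c sqrt(log n log log n))` for all large `n`. -/
theorem result : ∃ c : ℝ, 0 < c ∧ ∃ N : ℕ, ∀ n : ℕ, N ≤ n →
    Real.exp (c * Real.sqrt (Real.log n * Real.log (Real.log n))) ≤ Vale.Agent.P238.c1 n :=
  ⟨1 / 100, by norm_num, 2 ^ (25 * 8 * 4 ^ 8), fun n hn => Vale.Agent.P238.lower 8 le_rfl n hn⟩

end Vale.Agent.Results.P238.Lower
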